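import Vale.Agent.P048.LowerBound
import Vale.Agent.P048.Full.Refute
import Vale.Agent.P048.Full.SmallGlue
import Vale.Agent.P048.Small.M8

/-!
`R(C_m, K_n) = (m-1)(n-1)+1` for all `m ≥ n ≥ 3`, `(m, n) ≠ (3, 3)`.
-/

open SimpleGraph

namespace Vale.Agent.Results.P048.FullRange

theorem result : ∀ m n : ℕ, 3 ≤ n → n ≤ m → ¬ (m = 3 ∧ n = 3) →
    IsLeast {N : ℕ | ∀ G : SimpleGraph (Fin N),
        cycleGraph m ⊑ G ∨ ∃ s, G.IsNIndepSet n s} ((m - 1) * (n - 1) + 1) := by
  intro m n hn hnm h33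
  refine Vale.Agent.P048.LowerBound.isLeast_ramsey (by omega) (by omega) ?_
  intro V _ G hcard
  classical
  by_cases h8 : m = 8
  · subst h8
    exact Vale.Agent.P048.Small.upper_eight hnm V G hcard
  rcases Nat.lt_or_ge m 9 with hm | hm
  · exact Vale.Agent.P048.Full.upper_small (by omega) hnm V G hcard
  · exact Vale.Agent.P048.Full.upper_of_nine hm hnm V G hcard

end Vale.Agent.Results.P048.FullRange
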